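import Vale.Agent.P263.AD.FreuRH

/-!
# P263, bridge: Freudenthal's theorem, the general core

* `lft_susp` : a space `B` is the union of two open sets which are contractible to `b`, with
  intersection homotopy equivalent to `X`. Then the pair `(Ω B, X)` is highly connected.
* `surj_of_lft`, `inj_of_lft` : based maps of spheres and their based homotopies deform to the
  subspace.
-/

open Topology Set Vale.Agent.P246.T Vale.Agent.P246.T.FM Vale.Agent.P263.AD.Freu

namespace Vale.Agent.P263B19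

section Pair

variable {X B : Type} [TopologicalSpace X] [TopologicalSpace B] {b : B} {V₁ V₂ : Set B}

/-- the relative homology of the pair `(Ω B, X)` -/
theorem hzero_gen (c₁ : Contr V₁ b) (c₂ : Contr V₂ b) (h₁ : IsOpen V₁) (h₂ : IsOpen V₂)
    (hc : V₁ ∪ V₂ = univ) (hb₁ : b ∈ V₁) (hb₂ : b ∈ V₂) (i : C(X, ↥(V₁ ∩ V₂)))
    (r : C(↥(V₁ ∩ V₂), X)) (hir : (i.comp r).Homotopic (ContinuousMap.id _))
    (hri : (r.comp i).Homotopic (ContinuousMap.id _)) (j : C(X, ↥(ev b ⁻¹' {b})))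
    (hj : IsEmbedding j) (hcj : ((clut c₁ c₂).comp i).Homotopic j) (x₀ : X) (N : ℕ)
    (hX : ∀ k < N, RZ X k) {n : ℕ} (hn : n < 2 * N) : HZero univ (range j) n := by
  refine hzero_of_rel hj x₀ (RelZ.congr hcj ?_)
  refine RelZ.comp ?_ i r hir hri
  exact relZ_clut c₁ c₂ h₁ h₂ hc hb₁ hb₂ N (fun k hk => RZ.of_retract hir (hX k hk)) hn

theorem sc_range {Y : Type} [TopologicalSpace Y] {j : C(X, Y)} (hj : IsEmbedding j)
    [SimplyConnectedSpace X] : SimplyConnectedSpace (range j) :=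
  hj.toHomeomorph.symm.toHomotopyEquiv.simplyConnectedSpace

/-- **the pair `(Ω B, X)` is `(2 N - 1)`-connected** -/
theorem lft_susp (c₁ : Contr V₁ b) (c₂ : Contr V₂ b) (h₁ : IsOpen V₁) (h₂ : IsOpen V₂)
    (hc : V₁ ∪ V₂ = univ) (hb₁ : b ∈ V₁) (hb₂ : b ∈ V₂) (i : C(X, ↥(V₁ ∩ V₂)))
    (r : C(↥(V₁ ∩ V₂), X)) (hir : (i.comp r).Homotopic (ContinuousMap.id _))
    (hri : (r.comp i).Homotopic (ContinuousMap.id _)) (j : C(X, ↥(ev b ⁻¹' {b})))
    (hj : IsEmbedding j) (hcj : ((clut c₁ c₂).comp i).Homotopic j) (x₀ : X) (N : ℕ)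
    (hX : ∀ k < N, RZ X k) [SimplyConnectedSpace X] [SimplyConnectedSpace ↥(ev b ⁻¹' {b})]
    {m : ℕ} (hm : m < 2 * N) : Lft (range j) m := by
  have h2 := sc_range hj
  exact lft_of_range (n := 2 * N - 2) (fun k hk => hzero_gen c₁ c₂ h₁ h₂ hc hb₁ hb₂ i r hir hri j
    hj hcj x₀ N hX (by omega)) (by omega)

end Pair

section Sphere

variable {X Y : Type} [TopologicalSpace X] [TopologicalSpace Y] {j : C(X, Y)} {m : ℕ}

/-- a map with values in the range of an embedding factors through it -/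
theorem exists_factor (hj : IsEmbedding j) {P : Type} [TopologicalSpace P] (f : C(P, Y))
    (hf : ∀ p, f p ∈ range j) : ∃ g : C(P, X), ∀ p, j (g p) = f p :=
  ⟨⟨fun p => hj.toHomeomorph.symm ⟨f p, hf p⟩,
    (Homeomorph.continuous _).comp (Continuous.subtype_mk f.continuous _)⟩,
    fun p => congrArg Subtype.val (hj.toHomeomorph.apply_symm_apply ⟨f p, hf p⟩)⟩

theorem exists_bd_pt (hm : 1 ≤ m) : ∃ y : Dk m, ‖(y : Fin m → ℝ)‖ = 1 := by
  obtain ⟨y, hy⟩ := qD_surjective hm (OnePoint.infty : OnePoint (Fin m → ℝ))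
  refine ⟨y, ?_⟩
  by_contra h3
  rw [qD_of_ne h3] at hy
  exact OnePoint.coe_ne_infty _ hy

/-- **based maps of spheres deform to the subspace** -/
theorem surj_of_lft (hj : IsEmbedding j) (hm : 1 ≤ m) (hl : Lft (range j) m) (x₀ : X)
    (f : C(OnePoint (Fin m → ℝ), Y)) (hf : f OnePoint.infty = j x₀) :
    ∃ (g : C(OnePoint (Fin m → ℝ), X)) (K : C(I × OnePoint (Fin m → ℝ), Y)),
      g OnePoint.infty = x₀ ∧ (∀ x, K (0, x) = f x) ∧ (∀ x, K (1, x) = j (g x)) ∧
        ∀ t, K (t, OnePoint.infty) = j x₀ := by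
  obtain ⟨K, hK0, hK1, hK2⟩ := hl (f.comp (qD m)) (ContinuousMap.const _ (j x₀))
    (fun x => by
      change j x₀ = f (qD m x.1)
      rw [qD_bd x.2, hf])
    (fun x => ⟨x₀, rfl⟩)
  have hKb : ∀ t (x : Dk m), ‖(x : Fin m → ℝ)‖ = 1 → K (t, x) = j x₀ :=
    fun t x hx => hK1 t ⟨x, hx⟩
  obtain ⟨G, hG⟩ := exists_descD hm K (fun t x y hx hy => by rw [hKb t x hx, hKb t y hy])
  have hGb : ∀ t, G (t, OnePoint.infty) = j x₀ := by
    intro t
    obtain ⟨y, hy⟩ := exists_bd_pt hm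
    rw [← qD_bd hy, hG]
    exact hKb t y hy
  obtain ⟨g, hg⟩ := exists_factor hj (⟨fun x => G (1, x), by fun_prop⟩ :
    C(OnePoint (Fin m → ℝ), Y)) (fun x => by
      obtain ⟨y, rfl⟩ := qD_surjective hm x
      change G (1, qD m y) ∈ _
      rw [hG]
      exact hK2 y)
  refine ⟨g, G, hj.injective ((hg _).trans (hGb 1)), fun x => ?_, fun x => (hg x).symm, hGb⟩
  obtain ⟨y, rfl⟩ := qD_surjective hm x
  rw [hG]
  exact hK0 y

/-- the first coordinate of a point of the cube, as a time -/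
noncomputable def tm (x : Dk (m + 1)) : I := cl (((x : Fin (m + 1) → ℝ) 0 + 1) / 2)

theorem continuous_tm : Continuous (tm : Dk (m + 1) → I) :=
  continuous_cl.comp (((((continuous_apply 0).comp continuous_subtype_val)).add
    continuous_const).div_const 2)

/-- the other coordinates -/
def tl (x : Dk (m + 1)) : Dk m := ⟨fun i => (x : Fin (m + 1) → ℝ) i.succ, by
  rw [mem_closedBall_zero_iff, pi_norm_le_iff_of_nonneg zero_le_one]
  exact fun i => (norm_le_pi_norm (x : Fin (m + 1) → ℝ) i.succ).trans (norm_le_one x)⟩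

theorem continuous_tl : Continuous (tl : Dk (m + 1) → Dk m) :=
  Continuous.subtype_mk (continuous_pi fun i =>
    (continuous_apply i.succ).comp continuous_subtype_val) _

/-- the point of the cube with given time and given other coordinates -/
def cs (q : I × Dk m) : Dk (m + 1) := ⟨Fin.cons (2 * (q.1 : ℝ) - 1) (q.2 : Fin m → ℝ), by
  rw [mem_closedBall_zero_iff, pi_norm_le_iff_of_nonneg zero_le_one]
  intro i
  refine Fin.cases ?_ (fun i => ?_) i
  · have h0 := q.1.2.1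
    have h1 := q.1.2.2
    rw [Fin.cons_zero, Real.norm_eq_abs, abs_le]
    constructor <;> linarith
  · rw [Fin.cons_succ]
    exact (norm_le_pi_norm (q.2 : Fin m → ℝ) i).trans (norm_le_one q.2)⟩

theorem continuous_cs : Continuous (cs : I × Dk m → Dk (m + 1)) := by
  refine Continuous.subtype_mk (continuous_pi fun i => ?_) _
  refine Fin.cases ?_ (fun i => ?_) i
  · simp only [Fin.cons_zero]
    fun_prop
  · simp only [Fin.cons_succ]
    exact (continuous_apply i).comp (continuous_subtype_val.comp continuous_snd)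

theorem tm_cs (q : I × Dk m) : tm (cs q) = q.1 := by
  have h : (2 * (q.1 : ℝ) - 1 + 1) / 2 = q.1 := by ring
  change cl ((2 * (q.1 : ℝ) - 1 + 1) / 2) = _
  rw [h, cl_coe]

theorem tl_cs (q : I × Dk m) : tl (cs q) = q.2 := rfl

theorem bd_cases {x : Dk (m + 1)} (hx : ‖(x : Fin (m + 1) → ℝ)‖ = 1) :
    tm x = 0 ∨ tm x = 1 ∨ ‖(tl x : Fin m → ℝ)‖ = 1 := by
  by_contra hcon
  push Not at hcon
  obtain ⟨h0, h1, h2⟩ := hcon
  have h3 : ‖(tl x : Fin m → ℝ)‖ < 1 := lt_of_le_of_ne (norm_le_one _) h2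
  have h4 : ‖(x : Fin (m + 1) → ℝ)‖ < 1 := by
    rw [pi_norm_lt_iff one_pos]
    intro i
    refine Fin.cases ?_ (fun i => ?_) i
    · rw [Real.norm_eq_abs, abs_lt]
      constructor
      · by_contra h
        exact h0 (cl_of_nonpos (by linarith))
      · by_contra h
        exact h1 (cl_of_one_le (by linarith))
    · exact (norm_le_pi_norm (tl x : Fin m → ℝ) i).trans_lt h3
  exact h4.ne hx

theorem cs_bd_of_norm (t : I) {y : Dk m} (hy : ‖(y : Fin m → ℝ)‖ = 1) :
    ‖(cs (t, y) : Fin (m + 1) → ℝ)‖ = 1 := by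
  refine le_antisymm (norm_le_one _) ?_
  refine hy.symm.trans_le ((pi_norm_le_iff_of_nonneg (norm_nonneg _)).2 ?_)
  exact fun i => norm_le_pi_norm (cs (t, y) : Fin (m + 1) → ℝ) i.succ

theorem cs_bd_of_end {t : I} (ht : t = 0 ∨ t = 1) (y : Dk m) :
    ‖(cs (t, y) : Fin (m + 1) → ℝ)‖ = 1 := by
  refine le_antisymm (norm_le_one _) ?_
  have h := norm_le_pi_norm (cs (t, y) : Fin (m + 1) → ℝ) 0
  have h2 : ‖(cs (t, y) : Fin (m + 1) → ℝ) 0‖ = 1 := by
    change ‖2 * (t : ℝ) - 1‖ = 1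
    rcases ht with rfl | rfl <;> norm_num
  rwa [h2] at h

/-- **based homotopies of maps of spheres deform to the subspace** -/
theorem inj_of_lft (hj : IsEmbedding j) (hm : 1 ≤ m) (hl : Lft (range j) (m + 1)) (x₀ : X)
    (f g : C(OnePoint (Fin m → ℝ), X)) (H : C(I × OnePoint (Fin m → ℝ), Y))
    (h0 : ∀ x, H (0, x) = j (f x)) (h1 : ∀ x, H (1, x) = j (g x))
    (hb : ∀ t, H (t, OnePoint.infty) = j x₀) :
    ∃ G : C(I × OnePoint (Fin m → ℝ), X), (∀ x, G (0, x) = f x) ∧ (∀ x, G (1, x) = g x) ∧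
      ∀ t, G (t, OnePoint.infty) = x₀ := by
  let s : C(Dk (m + 1), Y) := ⟨fun x => H (tm x, qD m (tl x)),
    H.continuous.comp (continuous_tm.prodMk ((qD m).continuous.comp continuous_tl))⟩
  obtain ⟨K, -, hK1, hK2⟩ := hl s ⟨fun q => s q.2.1, by fun_prop⟩ (fun _ => rfl) (fun x => by
    change H (tm x.1, qD m (tl x.1)) ∈ _
    rcases bd_cases x.2 with h | h | h
    · rw [h, h0]; exact mem_range_self _
    · rw [h, h1]; exact mem_range_self _
    · rw [qD_bd h, hb]; exact mem_range_self _)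
  obtain ⟨L, hL⟩ := exists_factor hj (⟨fun q => K (1, cs q),
    K.continuous.comp (continuous_const.prodMk continuous_cs)⟩ : C(I × Dk m, Y))
    (fun q => hK2 (cs q))
  have hLb : ∀ q : I × Dk m, ‖(cs q : Fin (m + 1) → ℝ)‖ = 1 → j (L q) = H (q.1, qD m q.2) := by
    intro q hq
    refine (hL q).trans ((hK1 1 ⟨cs q, hq⟩).trans ?_)
    change H (tm (cs q), qD m (tl (cs q))) = _
    rw [tm_cs, tl_cs]
  have hLx : ∀ t (y : Dk m), ‖(y : Fin m → ℝ)‖ = 1 → L (t, y) = x₀ := fun t y hy =>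
    hj.injective (by rw [hLb _ (cs_bd_of_norm t hy), qD_bd hy, hb])
  obtain ⟨G, hG⟩ := exists_descD hm L (fun t x y hx hy => by rw [hLx t x hx, hLx t y hy])
  refine ⟨G, fun x => ?_, fun x => ?_, fun t => ?_⟩
  · obtain ⟨y, rfl⟩ := qD_surjective hm x
    rw [hG]
    exact hj.injective (by rw [hLb _ (cs_bd_of_end (Or.inl rfl) y), h0])
  · obtain ⟨y, rfl⟩ := qD_surjective hm x
    rw [hG]
    exact hj.injective (by rw [hLb _ (cs_bd_of_end (Or.inr rfl) y), h1])
  · obtain ⟨y, hy⟩ := exists_bd_pt hm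
    rw [← qD_bd hy, hG]
    exact hLx t y hy

end Sphere

end Vale.Agent.P263B19
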