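import Vale.Agent.P263B15.Defs
import Vale.Agent.P263B19.Core

/-!
# P263, bridge: Freudenthal's theorem for `SuspData`
-/

open Topology Set OnePoint Vale.Agent.P246.T Vale.Agent.P246.T.FM Vale.Agent.P263.AD.Freu

namespace Vale.Agent.P263B19

open Vale.Agent.P263B15

section Rel

variable {X Y : Type} [TopologicalSpace X] [TopologicalSpace Y] {m : ℕ}

/-- a based homotopy, from a map on the cylinder -/
theorem hrel_of {f g : C(Sp m, X)} {x₀ : X} (H : C(I × Sp m, X)) (h0 : ∀ x, H (0, x) = f x)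
    (h1 : ∀ x, H (1, x) = g x) (hb : ∀ t, H (t, ∞) = x₀) : f.HomotopicRel g {∞} :=
  ⟨⟨⟨H, h0, h1⟩, fun t x hx => by
    obtain rfl : x = ∞ := hx
    change H (t, ∞) = f ∞
    rw [hb, ← h0, hb]⟩⟩

theorem of_hrel {f g : C(Sp m, X)} (h : f.HomotopicRel g {∞}) :
    ∃ H : C(I × Sp m, X), (∀ x, H (0, x) = f x) ∧ (∀ x, H (1, x) = g x) ∧
      ∀ t, H (t, ∞) = f ∞ := by
  obtain ⟨H⟩ := h
  exact ⟨H.toHomotopy.toContinuousMap, H.apply_zero, H.apply_one, fun t => H.eq_fst t rfl⟩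

variable {j : C(X, Y)}

/-- surjectivity on based homotopy classes -/
theorem surj_rel (hj : IsEmbedding j) (hm : 1 ≤ m) (hl : Lft (range j) m) {x₀ : X}
    (f : C(Sp m, Y)) (hf : f ∞ = j x₀) :
    ∃ g : C(Sp m, X), g ∞ = x₀ ∧ f.HomotopicRel (j.comp g) {∞} := by
  obtain ⟨g, K, hg, h0, h1, hb⟩ := surj_of_lft hj hm hl x₀ f hf
  exact ⟨g, hg, hrel_of K h0 h1 hb⟩

/-- injectivity on based homotopy classes -/
theorem inj_rel (hj : IsEmbedding j) (hm : 1 ≤ m) (hl : Lft (range j) (m + 1))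
    {f g : C(Sp m, X)} (h : (j.comp f).HomotopicRel (j.comp g) {∞}) : f.HomotopicRel g {∞} := by
  obtain ⟨H, h0, h1, hb⟩ := of_hrel h
  obtain ⟨G, hG0, hG1, hGb⟩ := inj_of_lft hj hm hl (f ∞) f g H h0 h1 hb
  exact hrel_of G hG0 hG1 hGb

theorem hrel_comp (j : C(X, Y)) {f g : C(Sp m, X)} (h : f.HomotopicRel g {∞}) :
    (j.comp f).HomotopicRel (j.comp g) {∞} := by
  obtain ⟨H, h0, h1, hb⟩ := of_hrel h
  exact hrel_of (x₀ := j (f ∞)) (j.comp H) (fun x => congrArg j (h0 x))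
    (fun x => congrArg j (h1 x)) (fun t => congrArg j (hb t))

theorem two_up (hj : IsEmbedding j) (hm : 1 ≤ m) (hl : Lft (range j) m) {x₀ : X}
    (h : Two X x₀ m) : Two Y (j x₀) m := by
  intro f g hf hg
  obtain ⟨f', hf1, hf2⟩ := surj_rel hj hm hl f hf
  obtain ⟨g', hg1, hg2⟩ := surj_rel hj hm hl g hg
  rcases h f' g' hf1 hg1 with h1 | h1 | h1
  · exact Or.inl (hf2.trans (hrel_comp j h1))
  · exact Or.inr (Or.inl (hg2.trans (hrel_comp j h1)))
  · exact Or.inr (Or.inr ((hf2.trans (hrel_comp j h1)).trans hg2.symm))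

theorem two_down (hj : IsEmbedding j) (hm : 1 ≤ m) (hl : Lft (range j) (m + 1)) {x₀ : X}
    (h : Two Y (j x₀) m) : Two X x₀ m := by
  intro f g hf hg
  rcases h (j.comp f) (j.comp g) (congrArg j hf) (congrArg j hg) with h1 | h1 | h1
  · exact Or.inl (inj_rel hj hm hl h1)
  · exact Or.inr (Or.inl (inj_rel hj hm hl h1))
  · exact Or.inr (Or.inr (inj_rel hj hm hl h1))

theorem pn_iff {x₀ : X} : PN X x₀ m ↔
    ∀ f : C(Sp m, X), f ∞ = x₀ → f.HomotopicRel (ContinuousMap.const _ x₀) {∞} := by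
  constructor
  · intro h f hf
    obtain ⟨H, h0, h1, hb⟩ := h f hf
    exact hrel_of H h0 h1 hb
  · intro h f hf
    obtain ⟨H, h0, h1, hb⟩ := of_hrel (h f hf)
    exact ⟨H, h0, h1, fun t => (hb t).trans hf⟩

theorem pn_up (hj : IsEmbedding j) (hm : 1 ≤ m) (hl : Lft (range j) m) {x₀ : X}
    (h : PN X x₀ m) : PN Y (j x₀) m := by
  rw [pn_iff] at h ⊢
  intro f hf
  obtain ⟨f', hf1, hf2⟩ := surj_rel hj hm hl f hf
  exact hf2.trans (hrel_comp j (h f' hf1))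

theorem pn_down (hj : IsEmbedding j) (hm : 1 ≤ m) (hl : Lft (range j) (m + 1)) {x₀ : X}
    (h : PN Y (j x₀) m) : PN X x₀ m := by
  rw [pn_iff] at h ⊢
  intro f hf
  exact inj_rel hj hm hl (h (j.comp f) (congrArg j hf))

end Rel

section Susp

variable {A B : Type} [TopologicalSpace A] [TopologicalSpace B] {a₀ : A} {b : B}

/-- **Freudenthal's theorem**: the pair `(Ω Σ A, A)` is `(2 N - 1)`-connected -/
theorem lft_data (D : SuspData A B a₀ b) [SimplyConnectedSpace A] [SimplyConnectedSpace (Lp b)]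
    {N : ℕ} (hA : ∀ k < N, RZ A k) {m : ℕ} (hm : m < 2 * N) : Lft (range D.j) m :=
  lft_susp D.c₁ D.c₂ D.o₁ D.o₂ D.cov D.m₁ D.m₂ D.i D.r D.ir D.ri D.j D.emb D.cl a₀ N hA hm

theorem relZ_data (D : SuspData A B a₀ b) {N : ℕ} (hA : ∀ k < N, RZ A k) {n : ℕ}
    (hn : n < 2 * N) : RelZ D.j n :=
  RelZ.congr D.cl (RelZ.comp (relZ_clut D.c₁ D.c₂ D.o₁ D.o₂ D.cov D.m₁ D.m₂ N
    (fun k hk => RZ.of_retract D.ir (hA k hk)) hn) D.i D.r D.ir D.ri)

theorem two_loop (D : SuspData A B a₀ b) [SimplyConnectedSpace A] [SimplyConnectedSpace (Lp b)]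
    {N : ℕ} (hA : ∀ k < N, RZ A k) {m : ℕ} (hm1 : 1 ≤ m) (hm : m < 2 * N) (h : Two A a₀ m) :
    Two (Lp b) (kL b) m :=
  D.base ▸ two_up D.emb hm1 (lft_data D hA hm) h

theorem two_of_loop (D : SuspData A B a₀ b) [SimplyConnectedSpace A] [SimplyConnectedSpace (Lp b)]
    {N : ℕ} (hA : ∀ k < N, RZ A k) {m : ℕ} (hm1 : 1 ≤ m) (hm : m + 1 < 2 * N)
    (h : Two (Lp b) (kL b) m) : Two A a₀ m :=
  two_down D.emb hm1 (lft_data D hA hm) (D.base.symm ▸ h)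

end Susp

end Vale.Agent.P263B19
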