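import Vale.Agent.P263B15.Rows
import Vale.Agent.P263B19.Freu

/-!
# P263, bridge: the rows `FREU` and `HOMEO`
-/

open Topology Set OnePoint Vale.Agent.P246.T Vale.Agent.P246.T.FM Vale.Agent.P263.AD.Freu

namespace Vale.Agent.P263B19

open Vale.Agent.P263B15

theorem freu : FREU := by
  intro A B _ _ a₀ b D N m hA hB hz hm1 hm h
  exact two_loop D hz hm1 (by omega) h

section Homeo

variable {E E' K : Type} [NormedAddCommGroup E] [NormedSpace ℝ E] [NormedAddCommGroup E']
  [NormedSpace ℝ E'] [TopologicalSpace K] {s : E →L[ℝ] ℝ} {s' : E' →L[ℝ] ℝ} {k₀ : K}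

theorem congr_coe (e : E ≃L[ℝ] E') (x : E) :
    e.toHomeomorph.onePointCongr (x : OnePoint E) = ((e x : E') : OnePoint E') := rfl

theorem congr_infty (e : E ≃L[ℝ] E') : e.toHomeomorph.onePointCongr (∞ : OnePoint E) = ∞ := rfl

theorem congr_symm (e : E ≃L[ℝ] E') (w : OnePoint E) :
    e.symm.toHomeomorph.onePointCongr (e.toHomeomorph.onePointCongr w) = w := by
  induction w using OnePoint.rec with
  | infty => rfl
  | coe x => rw [congr_coe, congr_coe, e.symm_apply_apply]

/-- the change of coordinates -/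
noncomputable def Su.chg (k₀ : K) (e : E ≃L[ℝ] E') (he : ∀ x, s' (e x) = s x) (p : Su s k₀) :
    Su s' k₀ :=
  ⟨(e.toHomeomorph.onePointCongr p.1.1, p.1.2), by
    rcases Su.cases p with rfl | ⟨x, k, h, rfl⟩
    · exact (Su.inf s' k₀).2
    · exact (Su.mk s' k₀ (e x) k (by rw [he]; exact h)).2⟩

theorem Su.continuous_chg (e : E ≃L[ℝ] E') (he : ∀ x, s' (e x) = s x) :
    Continuous (Su.chg k₀ e he) :=
  Su.continuous_iff.2 ⟨e.toHomeomorph.onePointCongr.continuous.comp Su.continuous_fst,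
    Su.continuous_snd⟩

theorem chg_symm (e : E ≃L[ℝ] E') (he : ∀ x, s' (e x) = s x) (x : E') : s (e.symm x) = s' x := by
  rw [← he, e.apply_symm_apply]

/-- the change of coordinates, as a homeomorphism -/
noncomputable def Su.homeo (k₀ : K) (e : E ≃L[ℝ] E') (he : ∀ x, s' (e x) = s x) :
    Su s k₀ ≃ₜ Su s' k₀ where
  toFun := Su.chg k₀ e he
  invFun := Su.chg k₀ e.symm (chg_symm e he)
  left_inv p := Subtype.ext (Prod.ext (congr_symm e p.1.1) rfl)
  right_inv p := Subtype.ext (Prod.ext (congr_symm e.symm p.1.1) rfl)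
  continuous_toFun := Su.continuous_chg e he
  continuous_invFun := Su.continuous_chg e.symm (chg_symm e he)

end Homeo

theorem homeo : HOMEO := by
  intro E E' K _ _ _ _ _ s s' k₀ e he
  exact ⟨Su.homeo k₀ e he, rfl⟩

end Vale.Agent.P263B19
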